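import Vale.Agent.P314.Trunc

namespace Vale.Agent.Results.P314.HittingSet

open Vale.Agent.P314

universe u

theorem result (F : Type u) [Field F] (code : F → List Bool) :
    ∃ H : (p : ℕ × ℕ) → List (Tuple F p.1),
      (∃ M : Turing.TM2ComputableInPolyTime encodeInput (id : List Bool → List Bool)
          (fun p : ℕ × ℕ => encodeSet code (H p)), ∀ k, Finite (M.tm.Γ k)) ∧
      ∀ (n s : ℕ) (φ : Formula F n), φ.size ≤ s → φ.poly ≠ 0 →
        ∃ T ∈ H (n, s), FreeAlgebra.lift F T.2 φ.poly ≠ 0 :=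
  ⟨fun p => [tup F p.1 p.2], tm_tup F code, fun n s φ hs h0 =>
    ⟨tup F n s, List.mem_singleton_self _, hit φ hs h0⟩⟩

end Vale.Agent.Results.P314.HittingSet
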